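import Vale.Agent.P254.Bdl.B2
import Vale.Agent.P254.Bdl.B4
import Vale.Agent.P254.Bdl.B5
import Vale.Agent.P254.Bdl.B7
import Vale.Agent.P254.Bdl.B10
import Vale.Agent.P254.Bdl.B13
import Vale.Agent.P254.Bdl.B17
import Vale.Agent.P254.Bdl.B18
import Vale.Agent.P254.Bdl.B20
import Vale.Agent.P254.Refl.Good
import Vale.Agent.P254.Fib.IrrTop
import Vale.Agent.P254.Fib.AutTop461

/-!
The strong isotropic constant conjecture, with its equality case, for several explicit classes of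
convex bodies at once.
-/

open MeasureTheory Set Matrix

namespace Vale.Agent.P254.Glob

variable {n : ℕ}

theorem close (hn : 1 ≤ n) {K S : Set (Fin n → ℝ)} (hK : IsConvexBody K) (hS : IsSimplex S)
    (hclose : (∃ T : Set (Fin n → ℝ), IsSimplex T ∧ K ⊆ T ∧
        (1 - 1 / ((n : ℝ) + 2) ^ (4 * n)) * (volume T).toReal ≤ (volume K).toReal) ∨
      (∃ T : Set (Fin n → ℝ), ∃ z : Fin n → ℝ, ∃ r : ℝ, 0 < r ∧ r ≤ 1 + 1 / ((n : ℝ) + 2) ^ 5 ∧
        IsSimplex T ∧ T ⊆ K ∧ K ⊆ (fun x => z + r • x) '' T)) :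
    isoConst K ≤ isoConst S ∧ (isoConst K = isoConst S ↔ IsSimplex K) := by
  obtain ⟨⟨T₀, h1, h2, h3, h4⟩, h5⟩ := main_q hn hK hS hclose
  refine ⟨?_, h5⟩
  have hS0 : 0 ≤ isoConst S := by
    rw [isoConst_simplex hS]
    exact (isoConst_stdS_pos (by omega)).le
  refine h4.trans ?_
  have hT₀ : 0 < (volume T₀).toReal := by
    obtain ⟨A0, b0, hA0, rfl⟩ := h1.exists_aff
    rw [volume_aff_image hA0 b0 isCompact_stdS.measurableSet]
    exact mul_pos (abs_pos.mpr hA0) volume_stdS_pos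
  have hT₀fin : volume T₀ ≠ ⊤ := by
    intro h
    rw [h] at hT₀
    simp at hT₀
  have hle : (volume K).toReal / (volume T₀).toReal ≤ 1 :=
    (div_le_one hT₀).mpr (ENNReal.toReal_mono hT₀fin (measure_mono h2))
  have hn0 : (0 : ℝ) < n := by exact_mod_cast hn
  have : 0 ≤ (1 - (volume K).toReal / (volume T₀).toReal) / (2 * (n : ℝ) ^ 2) :=
    div_nonneg (by linarith) (by positivity)
  nlinarith

/-- The strong isotropic constant conjecture, with its equality case, for the convex bodies `K`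
in `ℝⁿ` with one of the following properties: `K` has `n` affine hyperplane symmetries with
linearly independent directions, or `n - 1` which moreover form a connected system; `K` fills
nearly all of an affine image of an unconditional body; `K` is close to a simplex, in volume or in
Banach-Mazur distance; `K` is a polytope with at most `n + 2` vertices; `n = 3` and `K` has an
affine automorphism which is not an involution (with a condition if it reverses the
orientation). -/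
theorem exact (hn : 1 ≤ n) {K S : Set (Fin n → ℝ)} (hK : IsConvexBody K) (hS : IsSimplex S)
    (h : (∃ (m : ℕ) (a w : Fin m → Fin n → ℝ) (c : Fin m → ℝ), LinearIndependent ℝ a ∧
          (∀ i, w i ⬝ᵥ a i = 2) ∧ (∀ i, ∀ x ∈ K, x - (w i ⬝ᵥ x - c i) • a i ∈ K) ∧
          (m = n ∨ (2 ≤ n ∧ m + 1 = n ∧
            ∀ i j, Relation.ReflTransGen (fun i j => w i ⬝ᵥ a j ≠ 0) i j))) ∨
      (∃ (A : Matrix (Fin n) (Fin n) ℝ) (b : Fin n → ℝ) (U : Set (Fin n → ℝ)), A.det ≠ 0 ∧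
        IsConvexBody U ∧ Unc.Uncond U ∧ K ⊆ (fun x => A *ᵥ x + b) '' U ∧
        min (79 / 80) ((1 - 1 / 10 ^ 24) ^ n) *
          (volume ((fun x => A *ᵥ x + b) '' U)).toReal ≤ (volume K).toReal) ∨
      (∃ T : Set (Fin n → ℝ), IsSimplex T ∧ K ⊆ T ∧
        (1 - 1 / ((n : ℝ) + 2) ^ (4 * n)) * (volume T).toReal ≤ (volume K).toReal) ∨
      (∃ (T : Set (Fin n → ℝ)) (z : Fin n → ℝ) (r : ℝ), 0 < r ∧ r ≤ 1 + 1 / ((n : ℝ) + 2) ^ 5 ∧
        IsSimplex T ∧ T ⊆ K ∧ K ⊆ (fun x => z + r • x) '' T) ∨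
      (∃ v : Fin (n + 2) → Fin n → ℝ, K = convexHull ℝ (range v)) ∨
      (n = 3 ∧ ∃ (M : Matrix (Fin n) (Fin n) ℝ) (c : Fin n → ℝ), (fun x => M *ᵥ x + c) '' K = K ∧
        ((0 < M.det ∧ M * M ≠ 1) ∨ M * M * (M * M) ≠ 1))) :
    isoConst K ≤ isoConst S ∧ (isoConst K = isoConst S ↔ IsSimplex K) := by
  rcases h with ⟨m, a, w, c, ha, hw, hR, h | ⟨h0, h, hc⟩⟩ | ⟨A, b, U, hA, hU, hu, h1, h2⟩ |
    h | h | ⟨v, rfl⟩ | ⟨rfl, M, c, hM, h⟩
  · subst h
    exact Refl.top hn hK hS ha hw hR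
  · exact (Fib.irr_aff n hn (Or.inr ⟨by rw [Fintype.card_fin]; exact h,
      by rw [Fintype.card_fin]; omega⟩) a w c ha hw hc hK hR).iso hS
  · have r := EX.top_bm (Unc.uncr_all n) hn hK hS ⟨A, b, U, hA, hU, hu, Or.inl ⟨h1, h2⟩⟩
    exact ⟨r.1, r.2.1⟩
  · exact close hn hK hS (Or.inl h)
  · exact close hn hK hS (Or.inr h)
  · have r := FV.few_vertices hn v hK.2.2 hS
    exact ⟨r.1, r.2.1⟩
  · exact Fib.space_aut_iso hK hS hM h

end Vale.Agent.P254.Glob
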